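import Vale.Agent.P215Z.Frm.Defs

/-!
# P215, certificate: flat transports on boxes of cells
-/

noncomputable section

namespace Vale.Agent.P215Z.Cert

open Set

variable {G : Type} [Group G]

/-- a transport between adjacent cells which is flat on `K` -/
structure FlatOn (K : Set Pt) (τ : Pt → Pt → G) : Prop where
  refl : ∀ p ∈ K, τ p p = 1
  back : ∀ p ∈ K, ∀ k, p + ee k ∈ K → τ (p + ee k) p = (τ p (p + ee k))⁻¹
  sq : ∀ p k l, k ≠ l → p ∈ K → p + ee k ∈ K → p + ee l ∈ K → p + ee k + ee l ∈ K →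
    τ p (p + ee k) * τ (p + ee k) (p + ee k + ee l) =
      τ p (p + ee l) * τ (p + ee l) (p + ee k + ee l)

theorem FlatOn.mono {K K' : Set Pt} {τ : Pt → Pt → G} (h : FlatOn K τ) (hK : K' ⊆ K) :
    FlatOn K' τ :=
  ⟨fun p hp => h.refl p (hK hp), fun p hp k hk => h.back p (hK hp) k (hK hk),
    fun p k l hkl h1 h2 h3 h4 => h.sq p k l hkl (hK h1) (hK h2) (hK h3) (hK h4)⟩

/-- a trivialisation of the transport on `S` -/
def Triv (τ : Pt → Pt → G) (S : Set Pt) (T : Pt → G) : Prop :=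
  ∀ p ∈ S, ∀ q ∈ S, Adj p q → T q = T p * τ p q

theorem ee_self (k : Fin 4) : ee k k = 1 := by simp [ee]
theorem ee_ne {k j : Fin 4} (h : j ≠ k) : ee k j = 0 := by simp [ee, h]

theorem triv_of_step {K S : Set Pt} {τ : Pt → Pt → G} (h : FlatOn K τ) (hS : S ⊆ K) {T : Pt → G}
    (hT : ∀ p ∈ S, ∀ k, p + ee k ∈ S → T (p + ee k) = T p * τ p (p + ee k)) : Triv τ S T := by
  intro p hp q hq hpq
  rcases hpq with h0 | ⟨k, h0 | h0⟩
  · obtain rfl : q = p := sub_eq_zero.1 h0
    rw [h.refl q (hS hq), mul_one]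
  · obtain rfl : q = p + ee k := by rw [← h0]; abel
    exact hT p hp k hq
  · obtain rfl : p = q + ee k := by rw [← neg_neg (ee k), ← h0]; abel
    rw [h.back q (hS hq) k (hS hp), hT q hq k hp, mul_inv_cancel_right]

/-- transport along a line -/
def ln (τ : Pt → Pt → G) (m : Fin 4) (q : Pt) : ℕ → G
  | 0 => 1
  | n + 1 => ln τ m q n * τ (q + n • ee m) (q + n • ee m + ee m)

theorem exists_step {K : Set Pt} {τ : Pt → Pt → G} (h : FlatOn K τ) {lo hi : Pt}
    (hS : Icc lo hi ⊆ K) (s : Finset (Fin 4)) : ∃ T : Pt → G, ∀ p ∈ Icc lo hi, ∀ k ∈ s,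
      (∀ j ∉ s, p j = lo j) → p + ee k ∈ Icc lo hi → T (p + ee k) = T p * τ p (p + ee k) := by
  induction s using Finset.induction_on with
  | empty => exact ⟨fun _ => 1, fun _ _ _ hk => absurd hk (Finset.notMem_empty _)⟩
  | insert m s hm ih =>
    obtain ⟨T, hT⟩ := ih
    obtain ⟨T', hT'⟩ : ∃ T' : Pt → G, ∀ p, T' p =
        T (Function.update p m (lo m)) * ln τ m (Function.update p m (lo m)) (p m - lo m).toNat :=
      ⟨_, fun _ => rfl⟩
    have hup : ∀ (q : Pt) (n : ℕ), q m = lo m → T' (q + n • ee m) = T q * ln τ m q n := by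
      intro q n hq
      have e1 : Function.update (q + n • ee m) m (lo m) = q := by
        funext j
        by_cases hj : j = m
        · rw [hj, Function.update_self, hq]
        · rw [Function.update_of_ne hj]; simp [ee_ne hj]
      have e2 : ((q + n • ee m) m - lo m).toNat = n := by simp [ee_self, hq]
      rw [hT', e1, e2]
    have hdec : ∀ p ∈ Icc lo hi, ∃ (q : Pt) (n : ℕ), q m = lo m ∧ p = q + n • ee m := by
      intro p hp
      refine ⟨Function.update p m (lo m), (p m - lo m).toNat, Function.update_self .., ?_⟩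
      funext j
      by_cases hj : j = m
      · have : lo m ≤ p m := hp.1 m
        subst hj
        rw [Pi.add_apply, Function.update_self, Pi.smul_apply, ee_self, nsmul_eq_mul, mul_one]
        omega
      · simp [Function.update_of_ne hj, ee_ne hj]
    have hm' : ∀ (q : Pt) (n : ℕ), q m = lo m →
        T' (q + n • ee m + ee m) = T' (q + n • ee m) * τ (q + n • ee m) (q + n • ee m + ee m) := by
      intro q n hq
      have e : q + n • ee m + ee m = q + (n + 1) • ee m := by rw [succ_nsmul, add_assoc]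
      have h1 := hup q (n + 1) hq
      rw [← e] at h1
      rw [hup q n hq, mul_assoc]
      exact h1
    refine ⟨T', fun p hp k hk hj hpk => ?_⟩
    obtain ⟨q, n, hq, rfl⟩ := hdec p hp
    by_cases hkm : k = m
    · subst hkm
      exact hm' q n hq
    have hks : k ∈ s := (Finset.mem_insert.1 hk).resolve_left hkm
    have hqj : ∀ j ∉ s, q j = lo j := by
      intro j hjs
      by_cases hjm : j = m
      · rw [hjm, hq]
      · have := hj j (by simp [hjm, hjs])
        simpa [ee_ne hjm] using this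
    have hqk : (q + ee k) m = lo m := by simp [ee_ne (Ne.symm hkm), hq]
    clear hj
    induction n with
    | zero =>
      have h1 := hup q 0 hq
      have h2 := hup (q + ee k) 0 hqk
      simp only [zero_smul, add_zero, ln, mul_one] at h1 h2 hp hpk ⊢
      rw [h1, h2]
      exact hT q hp k hks hqj hpk
    | succ n ih =>
      have e : q + (n + 1) • ee m = q + n • ee m + ee m := by rw [succ_nsmul, add_assoc]
      rw [e] at hp hpk ⊢
      have hb : ∀ r : Pt, r m = lo m → r + n • ee m + ee m ∈ Icc lo hi →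
          r + n • ee m ∈ Icc lo hi := by
        intro r hr hr'
        refine ⟨fun j => ?_, fun j => ?_⟩
        · by_cases hjm : j = m
          · subst hjm
            simp [ee_self, hr]
          · simpa [ee_ne hjm] using hr'.1 j
        · refine le_trans ?_ (hr'.2 j)
          by_cases hjm : j = m
          · subst hjm
            simp [ee_self]
          · simp [ee_ne hjm]
      have e1 : q + n • ee m + ee m + ee k = q + ee k + n • ee m + ee m := by abel
      have e2 : q + n • ee m + ee k = q + ee k + n • ee m := by abel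
      have e3 : q + n • ee m + ee k + ee m = q + n • ee m + ee m + ee k := by abel
      have h1 := hb q hq hp
      have h2 : q + n • ee m + ee k ∈ Icc lo hi := e2 ▸ hb (q + ee k) hqk (e1 ▸ hpk)
      have h3 := h.sq (q + n • ee m) k m hkm (hS h1) (hS h2) (hS hp) (hS (e3 ▸ hpk))
      have h4 := hm' (q + ee k) n hqk
      rw [← e2] at h4
      rw [← e3, h4, ih h1 h2, hm' q n hq, mul_assoc, h3, ← mul_assoc]

/-- the box lemma -/
theorem exists_triv {K : Set Pt} {τ : Pt → Pt → G} (h : FlatOn K τ) {lo hi : Pt}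
    (hS : Icc lo hi ⊆ K) : ∃ T : Pt → G, Triv τ (Icc lo hi) T := by
  obtain ⟨T, hT⟩ := exists_step h hS Finset.univ
  exact ⟨T, triv_of_step h hS fun p hp k hk =>
    hT p hp k (Finset.mem_univ _) (fun j hj => absurd (Finset.mem_univ j) hj) hk⟩

theorem const_of_step {α : Type} {lo hi : Pt} (f : Pt → α)
    (hf : ∀ p ∈ Icc lo hi, ∀ k, p + ee k ∈ Icc lo hi → f (p + ee k) = f p) :
    ∀ p ∈ Icc lo hi, f p = f lo := by
  have key : ∀ n : ℕ, ∀ p ∈ Icc lo hi, ∑ j, (p j - lo j) = n → f p = f lo := by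
    intro n
    induction n with
    | zero =>
      intro p hp h0
      have := (Finset.sum_eq_zero_iff_of_nonneg fun j _ => sub_nonneg.2 (hp.1 j)).1 h0
      rw [show p = lo from funext fun j => sub_eq_zero.1 (this j (Finset.mem_univ j))]
    | succ n ih =>
      intro p hp h0
      obtain ⟨k, hk⟩ : ∃ k, lo k < p k := by
        by_contra hc
        have : ∑ j, (p j - lo j) ≤ 0 :=
          Finset.sum_nonpos fun j _ => sub_nonpos.2 (not_lt.1 fun h => hc ⟨j, h⟩)
        omega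
      have hq : p - ee k ∈ Icc lo hi := by
        refine ⟨fun j => ?_, fun j => le_trans ?_ (hp.2 j)⟩
        · by_cases hj : j = k
          · subst hj
            simp only [Pi.sub_apply, ee_self]
            omega
          · simpa [ee_ne hj] using hp.1 j
        · by_cases hj : j = k
          · subst hj
            simp [ee_self]
          · simp [ee_ne hj]
      have h1 := hf _ hq k (by simpa using hp)
      rw [sub_add_cancel] at h1
      rw [h1]
      refine ih _ hq ?_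
      have e : ∑ j, ((p - ee k) j - lo j) = ∑ j, (p j - lo j) - ∑ j, ee k j := by
        rw [← Finset.sum_sub_distrib]
        exact Finset.sum_congr rfl fun j _ => by simp only [Pi.sub_apply]; ring
      have e' : ∑ j, ee k j = 1 := by simp [ee]
      rw [e, e', h0]
      push_cast
      ring
  intro p hp
  have h0 : 0 ≤ ∑ j, (p j - lo j) := Finset.sum_nonneg fun j _ => sub_nonneg.2 (hp.1 j)
  exact key _ p hp (Int.toNat_of_nonneg h0).symm

theorem adj_ee (p : Pt) (k : Fin 4) : Adj p (p + ee k) := Or.inr ⟨k, Or.inl (by simp)⟩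

/-- the transition between two trivialisations -/
def Rel (S S' : Set Pt) (T T' : Pt → G) (w : G) : Prop := ∀ p ∈ S, p ∈ S' → T p = w * T' p

theorem Rel.symm {S S' : Set Pt} {T T' : Pt → G} {w : G} (h : Rel S S' T T' w) :
    Rel S' S T' T w⁻¹ := fun p hp hp' => by rw [h p hp' hp, inv_mul_cancel_left]

theorem Rel.mono {S S' U U' : Set Pt} {T T' : Pt → G} {w : G} (h : Rel S S' T T' w) (h1 : U ⊆ S)
    (h2 : U' ⊆ S') : Rel U U' T T' w := fun p hp hp' => h p (h1 hp) (h2 hp')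

theorem Triv.mono {τ : Pt → Pt → G} {S U : Set Pt} {T : Pt → G} (h : Triv τ S T) (h1 : U ⊆ S) :
    Triv τ U T := fun p hp q hq => h p (h1 hp) q (h1 hq)

theorem exists_rel {τ : Pt → Pt → G} {lo hi lo' hi' : Pt} {T T' : Pt → G}
    (h : Triv τ (Icc lo hi) T) (h' : Triv τ (Icc lo' hi') T') :
    ∃ w, Rel (Icc lo hi) (Icc lo' hi') T T' w := by
  refine ⟨T (lo ⊔ lo') * (T' (lo ⊔ lo'))⁻¹, fun p hp hp' => ?_⟩
  have key := const_of_step (lo := lo ⊔ lo') (hi := hi ⊓ hi') (fun p => T p * (T' p)⁻¹)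
    (fun p hp k hk => by
      rw [← Icc_inter_Icc] at hp hk
      rw [h p hp.1 _ hk.1 (adj_ee p k), h' p hp.2 _ hk.2 (adj_ee p k)]
      group) p (by rw [← Icc_inter_Icc]; exact ⟨hp, hp'⟩)
  rw [← key, inv_mul_cancel_right]

theorem rel_of_point {τ : Pt → Pt → G} {lo hi lo' hi' : Pt} {T T' : Pt → G}
    (h : Triv τ (Icc lo hi) T) (h' : Triv τ (Icc lo' hi') T') {w : G} {p : Pt}
    (hp : p ∈ Icc lo hi) (hp' : p ∈ Icc lo' hi') (hw : T p = w * T' p) :
    Rel (Icc lo hi) (Icc lo' hi') T T' w := by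
  obtain ⟨w', hw'⟩ := exists_rel h h'
  rwa [mul_right_cancel (hw.symm.trans (hw' p hp hp'))]

theorem Triv.mul {τ : Pt → Pt → G} {S : Set Pt} {T : Pt → G} (h : Triv τ S T) (u : G) :
    Triv τ S fun p => u * T p := fun p hp q hq hpq => by
  simp only [h p hp q hq hpq, mul_assoc]

theorem holN_piece {τ : Pt → Pt → G} {S : Set Pt} {T : Pt → G} (h : Triv τ S T) (x : ℕ → Pt)
    {a b : ℕ} (hab : a ≤ b) (hx : ∀ k, a ≤ k → k ≤ b → x k ∈ S)
    (hadj : ∀ k < b, Adj (x k) (x (k + 1))) :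
    holN τ x b = holN τ x a * (T (x a))⁻¹ * T (x b) := by
  induction b, hab using Nat.le_induction with
  | base => rw [inv_mul_cancel_right]
  | succ b hab ih =>
    rw [holN, ih (fun k h1 h2 => hx k h1 (by omega)) (fun k hk => hadj k (by omega)),
      h (x b) (hx b hab (by omega)) (x (b + 1)) (hx _ (by omega) le_rfl) (hadj b (by omega))]
    simp only [mul_assoc]

/-- a closed path which visits `S 0`, `S 1`, `S 2`, `S 3` and `S 0` again -/
structure Loop5 (S : Fin 4 → Set Pt) (x : ℕ → Pt) (n : ℕ) : Prop where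
  adj : ∀ k < n, Adj (x k) (x (k + 1))
  closed : x n = x 0
  pieces : ∃ n1 n2 n3 n4, n1 ≤ n2 ∧ n2 ≤ n3 ∧ n3 ≤ n4 ∧ n4 ≤ n ∧ (∀ k ≤ n1, x k ∈ S 0) ∧
    (∀ k, n1 ≤ k → k ≤ n2 → x k ∈ S 1) ∧ (∀ k, n2 ≤ k → k ≤ n3 → x k ∈ S 2) ∧
    (∀ k, n3 ≤ k → k ≤ n4 → x k ∈ S 3) ∧ ∀ k, n4 ≤ k → k ≤ n → x k ∈ S 0

theorem Loop5.hol {τ : Pt → Pt → G} {S : Fin 4 → Set Pt} {T : Fin 4 → Pt → G} {w : Fin 4 → G}
    (hT : ∀ s, Triv τ (S s) (T s)) (hw : ∀ s, Rel (S s) (S (s + 1)) (T s) (T (s + 1)) (w s))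
    {x : ℕ → Pt} {n : ℕ} (h : Loop5 S x n) :
    holN τ x n = (T 0 (x 0))⁻¹ * (w 0 * w 1 * w 2 * w 3) * T 0 (x 0) := by
  obtain ⟨n1, n2, n3, n4, h12, h23, h34, h4, p0, p1, p2, p3, p4⟩ := h.pieces
  have e0 := holN_piece (hT 0) x (Nat.zero_le n1) (fun k _ hk => p0 k hk)
    fun k hk => h.adj k (by omega)
  have e1 := holN_piece (hT 1) x h12 p1 fun k hk => h.adj k (by omega)
  have e2 := holN_piece (hT 2) x h23 p2 fun k hk => h.adj k (by omega)
  have e3 := holN_piece (hT 3) x h34 p3 fun k hk => h.adj k (by omega)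
  have e4 := holN_piece (hT 0) x h4 p4 h.adj
  have r0 : T 0 (x n1) = w 0 * T 1 (x n1) := hw 0 _ (p0 _ le_rfl) (p1 _ le_rfl h12)
  have r1 : T 1 (x n2) = w 1 * T 2 (x n2) := hw 1 _ (p1 _ h12 le_rfl) (p2 _ le_rfl h23)
  have r2 : T 2 (x n3) = w 2 * T 3 (x n3) := hw 2 _ (p2 _ h23 le_rfl) (p3 _ le_rfl h34)
  have r3 : T 3 (x n4) = w 3 * T 0 (x n4) := hw 3 _ (p3 _ h34 le_rfl) (p4 _ le_rfl h4)
  rw [e4, e3, e2, e1, e0, r0, r1, r2, r3, h.closed, holN]
  group

/-- a closed path around the four sets, from any start, forwards (`true`) or backwards -/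
def Around (S : Fin 4 → Set Pt) (e : Bool) (x : ℕ → Pt) (n : ℕ) : Prop :=
  ∃ s0 : Fin 4, Loop5 (fun s => S (if e then s0 + s else s0 - s)) x n

theorem Around.hol {τ : Pt → Pt → G} {S : Fin 4 → Set Pt} {T : Fin 4 → Pt → G} {w : Fin 4 → G}
    (hT : ∀ s, Triv τ (S s) (T s)) (hw : ∀ s, Rel (S s) (S (s + 1)) (T s) (T (s + 1)) (w s))
    {e : Bool} {x : ℕ → Pt} {n : ℕ} (h : Around S e x n) :
    ∃ c, holN τ x n =
      c * (if e then w 0 * w 1 * w 2 * w 3 else (w 0 * w 1 * w 2 * w 3)⁻¹) * c⁻¹ := by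
  obtain ⟨s0, h⟩ := h
  cases e
  · have key := Loop5.hol (S := fun s => S (s0 - s)) (T := fun s => T (s0 - s))
      (w := fun s => (w (s0 - s - 1))⁻¹) (fun s => hT _) (fun s => by
        have := (hw (s0 - s - 1)).symm
        rw [sub_add_cancel] at this
        rw [← sub_sub]
        exact this) h
    rw [key]
    generalize T (s0 - 0) (x 0) = t
    fin_cases s0
    · exact ⟨t⁻¹, by
        show t⁻¹ * ((w 3)⁻¹ * (w 2)⁻¹ * (w 1)⁻¹ * (w 0)⁻¹) * t = _
        simp only [Bool.false_eq_true, if_false]; group⟩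
    · exact ⟨t⁻¹ * (w 0)⁻¹, by
        show t⁻¹ * ((w 0)⁻¹ * (w 3)⁻¹ * (w 2)⁻¹ * (w 1)⁻¹) * t = _
        simp only [Bool.false_eq_true, if_false]; group⟩
    · exact ⟨t⁻¹ * (w 1)⁻¹ * (w 0)⁻¹, by
        show t⁻¹ * ((w 1)⁻¹ * (w 0)⁻¹ * (w 3)⁻¹ * (w 2)⁻¹) * t = _
        simp only [Bool.false_eq_true, if_false]; group⟩
    · exact ⟨t⁻¹ * w 3, by
        show t⁻¹ * ((w 2)⁻¹ * (w 1)⁻¹ * (w 0)⁻¹ * (w 3)⁻¹) * t = _
        simp only [Bool.false_eq_true, if_false]; group⟩
  · have key := Loop5.hol (S := fun s => S (s0 + s)) (T := fun s => T (s0 + s))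
      (w := fun s => w (s0 + s)) (fun s => hT _) (fun s => by
        rw [← add_assoc]
        exact hw (s0 + s)) h
    rw [key]
    generalize T (s0 + 0) (x 0) = t
    fin_cases s0
    · exact ⟨t⁻¹, by
        show t⁻¹ * (w 0 * w 1 * w 2 * w 3) * t = _
        simp only [if_true]; group⟩
    · exact ⟨t⁻¹ * (w 0)⁻¹, by
        show t⁻¹ * (w 1 * w 2 * w 3 * w 0) * t = _
        simp only [if_true]; group⟩
    · exact ⟨t⁻¹ * (w 1)⁻¹ * (w 0)⁻¹, by
        show t⁻¹ * (w 2 * w 3 * w 0 * w 1) * t = _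
        simp only [if_true]; group⟩
    · exact ⟨t⁻¹ * w 3, by
        show t⁻¹ * (w 3 * w 0 * w 1 * w 2) * t = _
        simp only [if_true]; group⟩

end Vale.Agent.P215Z.Cert
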