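import Vale.Agent.P215Z.Cert.Main
import Vale.Agent.P215Z.Frm.Basic

/-!
# P215, certificate: leading terms
-/

noncomputable section

namespace Vale.Agent.P215Z.Cert

open Set Classical

section sub
variable {G : Type} [Group G] {N : ℕ} {τ : Pt → Pt → G}

theorem Around.mem {S : Fin 4 → Set Pt} {K : Set Pt} (hS : ∀ s, S s ⊆ K) {e : Bool} {x : ℕ → Pt}
    {n : ℕ} (h : Around S e x n) : ∀ k ≤ n, x k ∈ K := by
  obtain ⟨s0, -, -, n1, n2, n3, n4, h12, h23, h34, h4, p0, p1, p2, p3, p4⟩ := h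
  intro k hk
  by_cases h1 : k ≤ n1
  · exact hS _ (p0 k h1)
  by_cases h2 : k ≤ n2
  · exact hS _ (p1 k (by omega) h2)
  by_cases h3 : k ≤ n3
  · exact hS _ (p2 k (by omega) h3)
  by_cases h5 : k ≤ n4
  · exact hS _ (p3 k (by omega) h5)
  · exact hS _ (p4 k (by omega) hk)

theorem holN_congr' {α : Type} {U U' : α → α → G} (x : ℕ → α) (n : ℕ)
    (h : ∀ k < n, U (x k) (x (k + 1)) = U' (x k) (x (k + 1))) : holN U x n = holN U' x n := by
  induction n with
  | zero => rfl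
  | succ n ih => rw [holN, holN, ih fun k hk => h k (by omega), h n (by omega)]

theorem holN_congr'' {α β : Type} {U : α → α → G} {U' : β → β → G} (x : ℕ → α) (y : ℕ → β) (n : ℕ)
    (h : ∀ k < n, U (x k) (x (k + 1)) = U' (y k) (y (k + 1))) : holN U x n = holN U' y n := by
  induction n with
  | zero => rfl
  | succ n ih => rw [holN, holN, ih fun k hk => h k (by omega), h n (by omega)]

theorem hom_holN {α G' : Type} [Group G'] (φ : G →* G') (U : α → α → G) (x : ℕ → α) (n : ℕ) :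
    φ (holN U x n) = holN (fun x y => φ (U x y)) x n := by
  induction n with
  | zero => exact map_one φ
  | succ n ih => exact (map_mul φ _ _).trans (congrArg (· * φ (U (x n) (x (n + 1)))) ih)

/-- a box which contains a base face -/
def faceBox (l : Lg) : Fin 4 → Pt × Pt :=
  if l.2 then ![![b42, b21, b17, b15], ![b17, b55, b18, b4], ![b7, b32, b8, b23]] l.1
  else ![![b16, b21, b42, b15], ![b18, b55, b14, b4], ![b7, b23, b8, b1]] l.1

theorem Face_K0 (hN : 0 < N) (l : Lg) (s : Fin 4) : Face N l s ⊆ K0 N := by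
  have h : ∀ (l : Lg) (s : Fin 4), GoodB (faceBox l s) ∧ SubB (faceB l s) (faceBox l s) := by
    decide
  exact (Face_sub N l s).trans ((cB_mono N (h l s).2).trans (cB_sub hN (h l s).1))

theorem Side_K0 (hN : 0 < N) (s : Fin 4) : Side N s ⊆ K0 N := by
  have h : ∀ s : Fin 4, GoodB (sideB s) := by decide
  exact cB_sub hN (h s)

/-- as `HolIs`, with conjugating elements in `H` -/
def HolIn (H : Subgroup G) (τ : Pt → Pt → G) (S : Fin 4 → Set Pt) (z : G) : Prop :=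
  ∀ e x n, Around S e x n → ∃ c ∈ H, holN τ x n = c * (if e then z else z⁻¹) * c⁻¹

theorem cert_sub (hN : 0 < N) (h : FlatOn (K0 N) τ) (H : Subgroup G)
    (hH : ∀ p ∈ K0 N, ∀ q ∈ K0 N, τ p q ∈ H) : ∃ Z : Lg → G,
    (∀ l, HolIn H τ (Face N l) (Z l)) ∧
      HolIn H τ (Side N) (cm (cm (Z (0, false) * Z (0, true))⁻¹ (Z (1, false) * Z (1, true))⁻¹)
        (Z (2, true) * Z (2, false))) := by
  let τ' : Pt → Pt → H := fun p q =>
    if hpq : p ∈ K0 N ∧ q ∈ K0 N then ⟨τ p q, hH p hpq.1 q hpq.2⟩ else 1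
  have e : ∀ p ∈ K0 N, ∀ q ∈ K0 N, (τ' p q : G) = τ p q := fun p hp q hq => by
    simp only [τ', dif_pos (And.intro hp hq)]
  have h' : FlatOn (K0 N) τ' := by
    refine ⟨fun p hp => Subtype.ext ?_, fun p hp k hk => Subtype.ext ?_,
      fun p k l hkl h1 h2 h3 h4 => Subtype.ext ?_⟩
    · rw [e p hp p hp, h.refl p hp]; rfl
    · rw [Subgroup.coe_inv, e _ hk _ hp, e _ hp _ hk, h.back p hp k hk]
    · rw [Subgroup.coe_mul, Subgroup.coe_mul, e _ h1 _ h2, e _ h2 _ h4, e _ h1 _ h3, e _ h3 _ h4]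
      exact h.sq p k l hkl h1 h2 h3 h4
  have key : ∀ (S : Fin 4 → Set Pt) (z : H), (∀ s, S s ⊆ K0 N) → HolIs τ' S z →
      HolIn H τ S (z : G) := by
    intro S z hS hz b x n hx
    obtain ⟨c, hc⟩ := hz b x n hx
    refine ⟨c, c.2, ?_⟩
    have h1 := congrArg H.subtype hc
    rw [hom_holN] at h1
    have h2 : holN τ x n = holN (fun x y => H.subtype (τ' x y)) x n :=
      holN_congr' x n fun k hk =>
        (e _ (hx.mem hS k (by omega)) _ (hx.mem hS (k + 1) (by omega))).symm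
    rw [h2, h1]
    cases b <;> rfl
  obtain ⟨Z, h1, h2⟩ := cert hN h'
  exact ⟨fun l => Z l, fun l => key _ _ (Face_K0 hN l) (h1 l), key _ _ (Side_K0 hN) h2⟩

/-- two loops around the same four boxes with the same start have the same holonomy -/
theorem loop_eq {K : Set Pt} (h : FlatOn K τ) (lo hi : Fin 4 → Pt) (hK : ∀ s, Icc (lo s) (hi s) ⊆ K)
    {x y : ℕ → Pt} {n m : ℕ} (hx : Loop5 (fun s => Icc (lo s) (hi s)) x n)
    (hy : Loop5 (fun s => Icc (lo s) (hi s)) y m) (h0 : x 0 = y 0) : holN τ x n = holN τ y m := by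
  choose T hT using fun s => exists_triv h (hK s)
  choose w hw using fun s => exists_rel (hT s) (hT (s + 1))
  rw [hx.hol hT hw, hy.hol hT hw, h0]

end sub

section lead
variable {R : Type} [CommRing R]

/-- units congruent to one -/
def UC (a : Ideal R) : Subgroup (M2 R)ˣ where
  carrier := {g | InC a ((g : M2 R) - 1)}
  mul_mem' := fun {g h} hg hh => by
    have h1 := InC.mul_sub hg hh
    rwa [mul_one] at h1
  one_mem' := by
    show InC a (((1 : (M2 R)ˣ) : M2 R) - 1)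
    rw [Units.val_one, sub_self]
    exact InC.zero
  inv_mem' := fun {g} hg => InC.inv_sub (g := g) (g' := 1) hg

/-- `z` is the leading term of `u - 1` -/
structure Lead (a I : Ideal R) (u : (M2 R)ˣ) (z : M2 R) : Prop where
  mem : InC a ((u : M2 R) - 1)
  inI : InC I z
  app : InC (a * I) ((u : M2 R) - 1 - z)

variable {a I J : Ideal R} {u v c : (M2 R)ˣ} {z y : M2 R}

theorem Lead.sub_one (h : Lead a I u z) : InC I ((u : M2 R) - 1) := by
  have := (h.app.mono Ideal.mul_le_right).add h.inI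
  rwa [sub_add_cancel] at this

theorem Lead.mul (h : Lead a I u z) (h' : Lead a I v y) : Lead a I (u * v) (z + y) := by
  refine ⟨(UC a).mul_mem h.mem h'.mem, h.inI.add h'.inI, ?_⟩
  have e : ((u * v : (M2 R)ˣ) : M2 R) - 1 - (z + y) =
      ((u : M2 R) - 1) * ((v : M2 R) - 1) + ((u : M2 R) - 1 - z) + ((v : M2 R) - 1 - y) := by
    rw [Units.val_mul]; noncomm_ring
  rw [e]
  exact ((h.mem.mul h'.sub_one).add h.app).add h'.app

theorem Lead.inv (h : Lead a I u z) : Lead a I u⁻¹ (-z) := by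
  have h1 : InC a ((↑u⁻¹ : M2 R) - 1) := (UC a).inv_mem h.mem
  refine ⟨h1, h.inI.neg, ?_⟩
  have e : (↑u⁻¹ : M2 R) - 1 - -z =
      -(((↑u⁻¹ : M2 R) - 1) * ((u : M2 R) - 1)) - ((u : M2 R) - 1 - z) := by
    rw [sub_mul, mul_sub, Units.inv_mul]; noncomm_ring
  rw [e]
  exact (h1.mul h.sub_one).neg.sub h.app

theorem Lead.conj (h : Lead a I u z) (hc : c ∈ UC a) : Lead a I (c * u * c⁻¹) z := by
  have h1 : InC a ((c : M2 R) - 1) := hc
  have h2 : InC a ((↑c⁻¹ : M2 R) - 1) := (UC a).inv_mem hc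
  refine ⟨(UC a).mul_mem ((UC a).mul_mem hc h.mem) ((UC a).inv_mem hc), h.inI, ?_⟩
  have e : ((c * u * c⁻¹ : (M2 R)ˣ) : M2 R) - 1 - z =
      ((c : M2 R) - 1) * (((u : M2 R) - 1) * ↑c⁻¹) + ((u : M2 R) - 1) * ((↑c⁻¹ : M2 R) - 1) +
        ((u : M2 R) - 1 - z) + ((c : M2 R) * ↑c⁻¹ - 1) := by
    rw [Units.val_mul, Units.val_mul]; noncomm_ring
  rw [e, Units.mul_inv, sub_self, add_zero]
  exact ((h1.mul (h.sub_one.mul_right _)).add
    ((h.sub_one.mul h2).mono (mul_comm I a).le)).add h.app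

theorem Lead.of_conj {e : Bool} (h : Lead a I v z) (hc : c ∈ UC a)
    (hv : v = c * (if e then u else u⁻¹) * c⁻¹) : Lead a I u (if e then z else -z) := by
  have h1 := h.conj ((UC a).inv_mem hc)
  rw [hv, show ∀ w : (M2 R)ˣ, c⁻¹ * (c * w * c⁻¹) * c⁻¹⁻¹ = w from fun w => by group] at h1
  cases e
  · exact inv_inv u ▸ h1.inv
  · exact h1

theorem Lead.cm (h : Lead a I u z) (h' : Lead a J v y) : Lead a (I * J) (cm u v) ⁅z, y⁆ := by
  have hu := (UC a).inv_mem h.mem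
  have hv := (UC a).inv_mem h'.mem
  have h0 : InC a (((u⁻¹ * v⁻¹ : (M2 R)ˣ) : M2 R) - 1) := (UC a).mul_mem hu hv
  have hJI : J * I ≤ I * J := (mul_comm J I).le
  have l1 : a * I * J ≤ a * (I * J) := (mul_assoc _ _ _).le
  have l2 : I * (a * J) ≤ a * (I * J) := (mul_left_comm _ _ _).le
  have l3 : a * J * I ≤ a * (I * J) := by rw [mul_assoc, mul_comm J I]
  have l4 : J * (a * I) ≤ a * (I * J) := by rw [mul_left_comm, mul_comm J I]
  have hb : InC (I * J) (((u : M2 R) - 1) * ((v : M2 R) - 1) - ((v : M2 R) - 1) * ((u : M2 R) - 1)) :=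
    (h.sub_one.mul h'.sub_one).sub ((h'.sub_one.mul h.sub_one).mono hJI)
  refine ⟨(UC a).mul_mem ((UC a).mul_mem ((UC a).mul_mem h.mem h'.mem) hu) hv,
    (h.inI.mul h'.inI).sub ((h'.inI.mul h.inI).mono hJI), ?_⟩
  have e0 : (v : M2 R) * u * ((↑u⁻¹ : M2 R) * ↑v⁻¹) = 1 := by
    rw [mul_assoc, Units.mul_inv_cancel_left, Units.mul_inv]
  have e : ((Cert.cm u v : (M2 R)ˣ) : M2 R) - 1 - ⁅z, y⁆ =
      (((u : M2 R) - 1) * ((v : M2 R) - 1) - ((v : M2 R) - 1) * ((u : M2 R) - 1)) *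
          (((u⁻¹ * v⁻¹ : (M2 R)ˣ) : M2 R) - 1) +
        (((u : M2 R) - 1 - z) * ((v : M2 R) - 1) + z * ((v : M2 R) - 1 - y)) -
        (((v : M2 R) - 1 - y) * ((u : M2 R) - 1) + y * ((u : M2 R) - 1 - z)) +
        ((v : M2 R) * u * ((↑u⁻¹ : M2 R) * ↑v⁻¹) - 1) := by
    rw [Cert.cm, Ring.lie_def]
    simp only [Units.val_mul]
    noncomm_ring
  rw [e, e0, sub_self, add_zero]
  exact (((hb.mul h0).mono (mul_comm _ _).le).add (((h.app.mul h'.sub_one).mono l1).add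
    ((h.inI.mul h'.app).mono l2))).sub (((h'.app.mul h.sub_one).mono l3).add
    ((h'.inI.mul h.app).mono l4))

/-- the certificate for leading terms -/
theorem cert_lead {N : ℕ} (hN : 0 < N) {τ : Pt → Pt → (M2 R)ˣ} (h : FlatOn (K0 N) τ)
    (hH : ∀ p ∈ K0 N, ∀ q ∈ K0 N, τ p q ∈ UC a) (ZI : Fin 3 → Ideal R) (z : Lg → M2 R)
    (e : Lg → Bool)
    (hz : ∀ l, ∃ x n, Around (Face N l) (e l) x n ∧ Lead a (ZI l.1) (holN τ x n) (z l))
    {x : ℕ → Pt} {n : ℕ} (hx : Around (Side N) true x n) (h1 : holN τ x n = 1) :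
    let ζ : Lg → M2 R := fun l => if e l then z l else -z l
    InC (a * ZI 0 * ZI 1 * ZI 2)
      ⁅⁅ζ (0, true) + ζ (0, false), ζ (1, true) + ζ (1, false)⁆, ζ (2, true) + ζ (2, false)⁆ := by
  intro ζ
  obtain ⟨Z, hZ, hγ⟩ := cert_sub hN h (UC a) hH
  have hl : ∀ l, Lead a (ZI l.1) (Z l) (ζ l) := fun l => by
    obtain ⟨x, n, h2, h3⟩ := hz l
    obtain ⟨c, hc, h4⟩ := hZ l _ x n h2
    exact h3.of_conj hc h4
  have h2 := ((((hl (0, false)).mul (hl (0, true))).inv.cm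
    ((hl (1, false)).mul (hl (1, true))).inv).cm ((hl (2, true)).mul (hl (2, false)))).app
  obtain ⟨c, -, h3⟩ := hγ true x n hx
  rw [h1, if_pos rfl, eq_mul_inv_iff_mul_eq, one_mul, left_eq_mul] at h3
  have nn : ∀ p q : M2 R, ⁅-p, -q⁆ = ⁅p, q⁆ := fun p q => by
    rw [Ring.lie_def, Ring.lie_def, neg_mul_neg, neg_mul_neg]
  rw [h3, Units.val_one, sub_self, zero_sub, nn, add_comm (ζ (0, false)),
    add_comm (ζ (1, false))] at h2
  have h4 := h2.neg
  rw [neg_neg] at h4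
  exact h4.mono (by rw [← mul_assoc, ← mul_assoc])

end lead

end Vale.Agent.P215Z.Cert
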