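import Vale.Agent.P215Z.Cert.Reg

/-!
# P215, certificate: the boundary loop is an iterated commutator of the meridians
-/

noncomputable section

namespace Vale.Agent.P215Z.Cert

open Set

variable {G : Type} [Group G] {N : ℕ} {τ : Pt → Pt → G}

/-- the group commutator -/
def cm (x y : G) : G := x * y * x⁻¹ * y⁻¹

/-- every loop around the four sets has holonomy conjugate to `z`, or its inverse -/
def HolIs (τ : Pt → Pt → G) (S : Fin 4 → Set Pt) (z : G) : Prop :=
  ∀ e x n, Around S e x n → ∃ c, holN τ x n = c * (if e then z else z⁻¹) * c⁻¹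

theorem Loop5.mono {S S' : Fin 4 → Set Pt} (h : ∀ s, S s ⊆ S' s) {x : ℕ → Pt} {n : ℕ}
    (hx : Loop5 S x n) : Loop5 S' x n := by
  obtain ⟨n1, n2, n3, n4, h12, h23, h34, h4, p0, p1, p2, p3, p4⟩ := hx.pieces
  exact ⟨hx.adj, hx.closed, n1, n2, n3, n4, h12, h23, h34, h4, fun k a => h _ (p0 k a),
    fun k a b => h _ (p1 k a b), fun k a b => h _ (p2 k a b), fun k a b => h _ (p3 k a b),
    fun k a b => h _ (p4 k a b)⟩

theorem HolIs.mono {S S' : Fin 4 → Set Pt} (h : ∀ s, S s ⊆ S' s) {z z' : G}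
    (hz : HolIs τ S' z) (e : z = z') : HolIs τ S z' :=
  fun b x n ⟨s0, hx⟩ => e ▸ hz b x n ⟨s0, hx.mono fun _ => h _⟩

theorem four {S : Fin 4 → Pt × Pt} {A0 A1 A2 A3 : Pt × Pt} {T0 T1 T2 T3 : Pt → G}
    (h0 : Triv τ (cB N A0) T0) (h1 : Triv τ (cB N A1) T1) (h2 : Triv τ (cB N A2) T2)
    (h3 : Triv τ (cB N A3) T3) {w0 w1 w2 w3 : G} (r0 : Rel (cB N A0) (cB N A1) T0 T1 w0)
    (r1 : Rel (cB N A1) (cB N A2) T1 T2 w1) (r2 : Rel (cB N A2) (cB N A3) T2 T3 w2)
    (r3 : Rel (cB N A3) (cB N A0) T3 T0 w3)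
    (hs : SubB (S 0) A0 ∧ SubB (S 1) A1 ∧ SubB (S 2) A2 ∧ SubB (S 3) A3) :
    HolIs τ (fun s => cB N (S s)) (w0 * w1 * w2 * w3) := by
  have m0 := cB_mono N hs.1
  have m1 := cB_mono N hs.2.1
  have m2 := cB_mono N hs.2.2.1
  have m3 := cB_mono N hs.2.2.2
  intro e x n h
  refine Around.hol (T := ![T0, T1, T2, T3]) (w := ![w0, w1, w2, w3]) (fun s => ?_)
    (fun s => ?_) h
  · fin_cases s
    exacts [h0.mono m0, h1.mono m1, h2.mono m2, h3.mono m3]
  · fin_cases s
    exacts [r0.mono m0 m1, r1.mono m1 m2, r2.mono m2 m3, r3.mono m3 m0]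

def b1 : Pt × Pt := bx 0 0 0 1 9 7
def b4 : Pt × Pt := bx 0 0 14 9 9 23
def b5 : Pt × Pt := bx 0 6 4 9 9 23
def b6 : Pt × Pt := bx 0 0 4 10 3 15
def b7 : Pt × Pt := bx 0 0 0 10 9 1
def b8 : Pt × Pt := bx 0 0 4 10 9 7
def b11 : Pt × Pt := bx 0 0 0 16 1 23
def b12 : Pt × Pt := bx 0 0 0 16 4 1
def b14 : Pt × Pt := bx 0 0 22 16 9 23
def b15 : Pt × Pt := bx 0 2 6 16 3 15
def b16 : Pt × Pt := bx 0 2 6 16 7 7
def b17 : Pt × Pt := bx 0 2 14 16 7 15
def b18 : Pt × Pt := bx 0 3 18 16 6 19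
def b19 : Pt × Pt := bx 0 5 0 16 9 1
def b20 : Pt × Pt := bx 0 5 4 16 9 5
def b21 : Pt × Pt := bx 0 6 6 16 7 15
def b22 : Pt × Pt := bx 0 8 0 16 9 23
def b23 : Pt × Pt := bx 4 3 0 5 6 7
def b32 : Pt × Pt := bx 8 2 0 10 7 7
def b35 : Pt × Pt := bx 8 2 0 13 4 5
def b36 : Pt × Pt := bx 8 5 0 13 7 5
def b38 : Pt × Pt := bx 8 0 3 16 4 5
def b42 : Pt × Pt := bx 9 2 10 12 7 11
def b45 : Pt × Pt := bx 11 2 0 13 7 7
def b48 : Pt × Pt := bx 11 0 0 16 9 2
def b49 : Pt × Pt := bx 11 0 3 16 9 7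
def b54 : Pt × Pt := bx 12 0 3 16 3 23
def b55 : Pt × Pt := bx 12 0 14 16 9 23
def b58 : Pt × Pt := bx 14 0 0 16 4 7
def b59 : Pt × Pt := bx 14 5 0 16 9 7
def b60 : Pt × Pt := bx 14 6 0 16 9 23

/-- The certificate. -/
theorem cert (hN : 0 < N) (h : FlatOn (K0 N) τ) : ∃ Z : Lg → G,
    (∀ l, HolIs τ (Face N l) (Z l)) ∧
      HolIs τ (Side N) (cm (cm (Z (0, false) * Z (0, true))⁻¹ (Z (1, false) * Z (1, true))⁻¹)
        (Z (2, true) * Z (2, false))) := by
  obtain ⟨T48, h48⟩ := root hN h b48 (by decide)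
  obtain ⟨T60, h60, r48_60⟩ := grow hN h h48 b60 (by decide) (by decide)
  obtain ⟨T21, h21, r60_21⟩ := grow hN h h60 b21 (by decide) (by decide)
  obtain ⟨T55, h55, r60_55⟩ := grow hN h h60 b55 (by decide) (by decide)
  obtain ⟨T49, h49, r21_49⟩ := grow hN h h21 b49 (by decide) (by decide)
  obtain ⟨T1, h1, r21_1⟩ := grow hN h h21 b1 (by decide) (by decide)
  obtain ⟨T16, h16, r49_16⟩ := grow hN h h49 b16 (by decide) (by decide)
  obtain ⟨T22, h22, r1_22⟩ := grow hN h h1 b22 (by decide) (by decide)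
  obtain ⟨T20, h20, r49_20⟩ := grow hN h h49 b20 (by decide) (by decide)
  obtain ⟨T59, h59, r20_59⟩ := grow hN h h20 b59 (by decide) (by decide)
  obtain ⟨T8, h8, r1_8⟩ := grow hN h h1 b8 (by decide) (by decide)
  obtain ⟨T7, h7, r1_7⟩ := grow hN h h1 b7 (by decide) (by decide)
  obtain ⟨T17, h17, r60_17⟩ := grow hN h h60 b17 (by decide) (by decide)
  obtain ⟨T19, h19, r1_19⟩ := grow hN h h1 b19 (by decide) (by decide)
  obtain ⟨T15, h15, r16_15⟩ := grow hN h h16 b15 (by decide) (by decide)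
  obtain ⟨T36, h36, r8_36⟩ := grow hN h h8 b36 (by decide) (by decide)
  obtain ⟨T14, h14, r22_14⟩ := grow hN h h22 b14 (by decide) (by decide)
  obtain ⟨T4, h4, r21_4⟩ := grow hN h h21 b4 (by decide) (by decide)
  obtain ⟨T11, h11, r8_11⟩ := grow hN h h8 b11 (by decide) (by decide)
  obtain ⟨T6, h6, r4_6⟩ := grow hN h h4 b6 (by decide) (by decide)
  obtain ⟨T54, h54, r15_54⟩ := grow hN h h15 b54 (by decide) (by decide)
  obtain ⟨T35, h35, r48_35⟩ := grow hN h h48 b35 (by decide) (by decide)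
  obtain ⟨T12, h12, r11_12⟩ := grow hN h h11 b12 (by decide) (by decide)
  obtain ⟨T5, h5, r22_5⟩ := grow hN h h22 b5 (by decide) (by decide)
  obtain ⟨T38, h38, r6_38⟩ := grow hN h h6 b38 (by decide) (by decide)
  obtain ⟨T45, h45, r38_45⟩ := grow hN h h38 b45 (by decide) (by decide)
  obtain ⟨T32, h32, r19_32⟩ := grow hN h h19 b32 (by decide) (by decide)
  obtain ⟨T58, h58, r12_58⟩ := grow hN h h12 b58 (by decide) (by decide)
  obtain ⟨T23, h23, r21_23⟩ := grow hN h h21 b23 (by decide) (by decide)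
  obtain ⟨T18, h18, r55_18⟩ := grow hN h h55 b18 (by decide) (by decide)
  obtain ⟨T42, h42, r54_42⟩ := grow hN h h54 b42 (by decide) (by decide)
  obtain ⟨x1, r11_38⟩ := gen h11 h38
  obtain ⟨x2, r19_59⟩ := gen h19 h59
  obtain ⟨x3, r32_36⟩ := gen h32 h36
  obtain ⟨x4, r5_42⟩ := gen h5 h42
  obtain ⟨x5, r12_23⟩ := gen h12 h23
  obtain ⟨x6, r5_18⟩ := gen h5 h18
  have r15_49 := tri h15 h49 r16_15.symm r49_16.symm (by decide)
    (w'' := 1) (by group)
  have r54_49 := tri h54 h49 r15_54.symm r15_49 (by decide)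
    (w'' := 1) (by group)
  have r11_58 := tri h11 h58 r11_12 r12_58 (by decide)
    (w'' := 1) (by group)
  have r21_17 := tri h21 h17 r60_21.symm r60_17 (by decide)
    (w'' := 1) (by group)
  have r17_4 := tri h17 h4 r21_17.symm r21_4 (by decide)
    (w'' := 1) (by group)
  have r17_6 := tri h17 h6 r17_4 r4_6 (by decide)
    (w'' := 1) (by group)
  have r21_16 := tri h21 h16 r21_49 r49_16 (by decide)
    (w'' := 1) (by group)
  have r16_1 := tri h16 h1 r21_16.symm r21_1 (by decide)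
    (w'' := 1) (by group)
  have r11_6 := tri h11 h6 r11_38 r6_38.symm (by decide)
    (w'' := x1) (by group)
  have r1_11 := tri h1 h11 r1_8 r8_11 (by decide)
    (w'' := 1) (by group)
  have r6_1 := tri h6 h1 r11_6.symm r1_11.symm (by decide)
    (w'' := x1⁻¹) (by group)
  have r16_6 := tri h16 h6 r16_1 r6_1.symm (by decide)
    (w'' := x1) (by group)
  have r15_6 := tri h15 h6 r16_15.symm r16_6 (by decide)
    (w'' := x1) (by group)
  have r17_15 := tri h17 h15 r17_6 r15_6.symm (by decide)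
    (w'' := x1⁻¹) (by group)
  have r55_17 := tri h55 h17 r60_55.symm r60_17 (by decide)
    (w'' := 1) (by group)
  have r15_55 := tri h15 h55 r17_15.symm r55_17.symm (by decide)
    (w'' := x1) (by group)
  have r55_54 := tri h55 h54 r15_55.symm r15_54 (by decide)
    (w'' := x1⁻¹) (by group)
  have r5_1 := tri h5 h1 r22_5.symm r1_22.symm (by decide)
    (w'' := 1) (by group)
  have r21_5 := tri h21 h5 r21_1 r5_1.symm (by decide)
    (w'' := 1) (by group)
  have r5_4 := tri h5 h4 r21_5.symm r21_4 (by decide)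
    (w'' := 1) (by group)
  have r4_22 := tri h4 h22 r5_4.symm r22_5.symm (by decide)
    (w'' := 1) (by group)
  have r14_4 := tri h14 h4 r22_14.symm r4_22.symm (by decide)
    (w'' := 1) (by group)
  have r4_11 := tri h4 h11 r4_6 r11_6.symm (by decide)
    (w'' := x1⁻¹) (by group)
  have r14_11 := tri h14 h11 r14_4 r4_11 (by decide)
    (w'' := x1⁻¹) (by group)
  have r59_49 := tri h59 h49 r20_59.symm r49_20.symm (by decide)
    (w'' := 1) (by group)
  have r22_19 := tri h22 h19 r1_22.symm r1_19 (by decide)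
    (w'' := 1) (by group)
  have r59_22 := tri h59 h22 r19_59.symm r22_19.symm (by decide)
    (w'' := x2⁻¹) (by group)
  have r49_22 := tri h49 h22 r59_49.symm r59_22 (by decide)
    (w'' := x2⁻¹) (by group)
  have r60_49 := tri h60 h49 r60_21 r21_49 (by decide)
    (w'' := 1) (by group)
  have r22_60 := tri h22 h60 r49_22.symm r60_49.symm (by decide)
    (w'' := x2) (by group)
  have r55_22 := tri h55 h22 r60_55.symm r22_60.symm (by decide)
    (w'' := x2⁻¹) (by group)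
  have r14_55 := tri h14 h55 r22_14.symm r55_22.symm (by decide)
    (w'' := x2) (by group)
  have r11_55 := tri h11 h55 r14_11.symm r14_55 (by decide)
    (w'' := x1 * x2) (by group)
  have r54_11 := tri h54 h11 r55_54.symm r11_55.symm (by decide)
    (w'' := x1 * x2⁻¹ * x1⁻¹) (by group)
  have r58_54 := tri h58 h54 r11_58.symm r54_11.symm (by decide)
    (w'' := x1 * x2 * x1⁻¹) (by group)
  have r49_58 := tri h49 h58 r54_49.symm r58_54.symm (by decide)
    (w'' := x1 * x2⁻¹ * x1⁻¹) (by group)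
  have r21_59 := tri h21 h59 r21_49 r59_49.symm (by decide)
    (w'' := 1) (by group)
  have r60_59 := tri h60 h59 r60_21 r21_59 (by decide)
    (w'' := 1) (by group)
  have r59_48 := tri h59 h48 r60_59.symm r48_60.symm (by decide)
    (w'' := 1) (by group)
  have r19_7 := tri h19 h7 r1_19.symm r1_7 (by decide)
    (w'' := 1) (by group)
  have r7_32 := tri h7 h32 r19_7.symm r19_32 (by decide)
    (w'' := 1) (by group)
  have r1_12 := tri h1 h12 r1_11 r11_12 (by decide)
    (w'' := 1) (by group)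
  have r12_7 := tri h12 h7 r1_12.symm r1_7 (by decide)
    (w'' := 1) (by group)
  have r32_12 := tri h32 h12 r7_32.symm r12_7.symm (by decide)
    (w'' := 1) (by group)
  have r48_19 := tri h48 h19 r59_48.symm r19_59.symm (by decide)
    (w'' := x2⁻¹) (by group)
  have r19_36 := tri h19 h36 r19_32 r32_36 (by decide)
    (w'' := x3) (by group)
  have r54_38 := tri h54 h38 r54_11 r11_38 (by decide)
    (w'' := x1 * x2⁻¹) (by group)
  have r54_45 := tri h54 h45 r54_38 r38_45 (by decide)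
    (w'' := x1 * x2⁻¹) (by group)
  have r49_45 := tri h49 h45 r54_49.symm r54_45 (by decide)
    (w'' := x1 * x2⁻¹) (by group)
  have r22_20 := tri h22 h20 r59_22.symm r20_59.symm (by decide)
    (w'' := x2) (by group)
  have r22_8 := tri h22 h8 r1_22.symm r1_8 (by decide)
    (w'' := 1) (by group)
  have r20_8 := tri h20 h8 r22_20.symm r22_8 (by decide)
    (w'' := x2⁻¹) (by group)
  have r36_20 := tri h36 h20 r8_36.symm r20_8.symm (by decide)
    (w'' := x2) (by group)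
  have r49_36 := tri h49 h36 r49_20 r36_20.symm (by decide)
    (w'' := x2⁻¹) (by group)
  have r45_36 := tri h45 h36 r49_45.symm r49_36 (by decide)
    (w'' := x2 * x1⁻¹ * x2⁻¹) (by group)
  have r19_45 := tri h19 h45 r19_36 r45_36.symm (by decide)
    (w'' := x3 * x2 * x1 * x2⁻¹) (by group)
  have r48_45 := tri h48 h45 r48_19 r19_45 (by decide)
    (w'' := x2⁻¹ * x3 * x2 * x1 * x2⁻¹) (by group)
  have r45_35 := tri h45 h35 r48_45.symm r48_35 (by decide)
    (w'' := x2 * x1⁻¹ * x2⁻¹ * x3⁻¹ * x2) (by group)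
  have r38_35 := tri h38 h35 r38_45 r45_35 (by decide)
    (w'' := x2 * x1⁻¹ * x2⁻¹ * x3⁻¹ * x2) (by group)
  have r8_38 := tri h8 h38 r8_11 r11_38 (by decide)
    (w'' := x1) (by group)
  have r32_8 := tri h32 h8 r32_36 r8_36.symm (by decide)
    (w'' := x3) (by group)
  have r38_32 := tri h38 h32 r8_38.symm r32_8.symm (by decide)
    (w'' := x1⁻¹ * x3⁻¹) (by group)
  have r35_32 := tri h35 h32 r38_35.symm r38_32 (by decide)
    (w'' := x2⁻¹ * x3 * x2 * x1 * x2⁻¹ * x1⁻¹ * x3⁻¹) (by group)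
  have r12_35 := tri h12 h35 r32_12.symm r35_32.symm (by decide)
    (w'' := x3 * x1 * x2 * x1⁻¹ * x2⁻¹ * x3⁻¹ * x2) (by group)
  have r12_48 := tri h12 h48 r12_35 r48_35.symm (by decide)
    (w'' := x3 * x1 * x2 * x1⁻¹ * x2⁻¹ * x3⁻¹ * x2) (by group)
  have r58_48 := tri h58 h48 r12_58.symm r12_48 (by decide)
    (w'' := x3 * x1 * x2 * x1⁻¹ * x2⁻¹ * x3⁻¹ * x2) (by group)
  have r42_21 := tri h42 h21 r5_42.symm r21_5.symm (by decide)
    (w'' := x4⁻¹) (by group)
  have r42_15 := tri h42 h15 r54_42.symm r15_54.symm (by decide)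
    (w'' := 1) (by group)
  have r4_18 := tri h4 h18 r5_4.symm r5_18 (by decide)
    (w'' := x6) (by group)
  have r21_8 := tri h21 h8 r21_1 r1_8 (by decide)
    (w'' := 1) (by group)
  have r8_23 := tri h8 h23 r21_8.symm r21_23 (by decide)
    (w'' := 1) (by group)
  have r7_23 := tri h7 h23 r12_7.symm r12_23 (by decide)
    (w'' := x5) (by group)
  have a0 := four (S := faceB (0, true)) h42 h21 h17 h15
    r42_21 r21_17 r17_15 r42_15.symm
    (by decide)
  have c0 := four (S := faceB (0, false)) h16 h21 h42 h15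
    r21_16.symm r42_21.symm r42_15 r16_15.symm
    (by decide)
  have a1 := four (S := faceB (1, true)) h17 h55 h18 h4
    r55_17.symm r55_18 r4_18.symm r17_4.symm
    (by decide)
  have c1 := four (S := faceB (1, false)) h18 h55 h14 h4
    r55_18.symm r14_55.symm r14_4 r4_18
    (by decide)
  have a2 := four (S := faceB (2, true)) h7 h32 h8 h23
    r7_32 r32_8 r8_23 r7_23.symm
    (by decide)
  have c2 := four (S := faceB (2, false)) h7 h23 h8 h1
    r7_23 r8_23.symm r1_8.symm r1_7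
    (by decide)
  have gm := four (S := sideB) h58 h49 h59 h48
    r49_58.symm r59_49.symm r59_48 r58_48.symm
    (by decide)
  refine ⟨fun l => if l.2 then ![x4⁻¹ * x1⁻¹, x6⁻¹, x3 * x5⁻¹] l.1 else ![x4, x2⁻¹ * x6, x5] l.1,
    ?_, ?_⟩
  · rintro ⟨i, b⟩
    fin_cases i <;> cases b
    · exact c0.mono (Face_sub N _) (show _ = x4 by group)
    · exact a0.mono (Face_sub N _) (show _ = x4⁻¹ * x1⁻¹ by group)
    · exact c1.mono (Face_sub N _) (show _ = x2⁻¹ * x6 by group)
    · exact a1.mono (Face_sub N _) (show _ = x6⁻¹ by group)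
    · exact c2.mono (Face_sub N _) (show _ = x5 by group)
    · exact a2.mono (Face_sub N _) (show _ = x3 * x5⁻¹ by group)
  · refine gm.mono (fun _ => subset_rfl)
      (show _ = cm (cm (x4 * (x4⁻¹ * x1⁻¹))⁻¹ (x2⁻¹ * x6 * x6⁻¹)⁻¹) (x3 * x5⁻¹ * x5) from ?_)
    simp only [cm]
    group

end Vale.Agent.P215Z.Cert
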