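import Vale.Agent.P215Z.Cert.Box

/-!
# P215, certificate: the region outside the caves and the six cubes, and its boxes
-/

noncomputable section

namespace Vale.Agent.P215Z.Cert

open Set

variable {G : Type} [Group G]

/-- cubes of the chart outside all six plumbing cubes -/
def U0 (N : ℕ) : Set Pt := {q | q ∈ Uc N ∧ ∀ l, q ∉ Qc N l}

def K0 (N : ℕ) : Set Pt := Kof (U0 N)

/-- the cells of a closed unit box -/
def cB (N : ℕ) (B : Pt × Pt) : Set Pt := Icc (fun j => 2 * N * B.1 j) (fun j => 2 * N * B.2 j)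

def bx (x y z x' y' z' : ℤ) : Pt × Pt := (![x, y, z, 0], ![x', y', z', 3])

def GoodB (B : Pt × Pt) : Prop :=
  (∀ j, 0 ≤ B.1 j ∧ B.1 j < B.2 j ∧ B.2 j ≤ boxHi j) ∧
    (∀ c ∈ caves, ∃ j, B.2 j ≤ c.1 j ∨ c.2 j ≤ B.1 j) ∧
    ∀ l : Lg, ∃ j, B.2 j ≤ org l j ∨ org l j + 3 ≤ B.1 j

instance (B : Pt × Pt) : Decidable (GoodB B) := by unfold GoodB; infer_instance

def Meet (A B C : Pt × Pt) : Prop :=
  ∀ j, max (max (A.1 j) (B.1 j)) (C.1 j) ≤ min (min (A.2 j) (B.2 j)) (C.2 j)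

instance (A B C : Pt × Pt) : Decidable (Meet A B C) := by unfold Meet; infer_instance

def SubB (A B : Pt × Pt) : Prop := ∀ j, B.1 j ≤ A.1 j ∧ A.2 j ≤ B.2 j

instance (A B : Pt × Pt) : Decidable (SubB A B) := by unfold SubB; infer_instance

theorem cB_mono (N : ℕ) {A B : Pt × Pt} (h : SubB A B) : cB N A ⊆ cB N B :=
  Icc_subset_Icc (fun j => mul_le_mul_of_nonneg_left (h j).1 (by positivity))
    fun j => mul_le_mul_of_nonneg_left (h j).2 (by positivity)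

theorem exists_cube {N : ℕ} (hN : 0 < N) {B : Pt × Pt} (hB : ∀ j, B.1 j < B.2 j) {p : Pt}
    (hp : p ∈ cB N B) : ∃ q, InBox N B.1 B.2 q ∧ ∀ j, |p j - cell q j| ≤ 1 := by
  have key : ∀ j, ∃ r : ℤ, (N * B.1 j ≤ r ∧ r < N * B.2 j) ∧ |p j - (2 * r + 1)| ≤ 1 := by
    intro j
    have h1 : 2 * (N * B.1 j) ≤ p j := by have := hp.1 j; simpa [mul_assoc] using this
    have h2 : p j ≤ 2 * (N * B.2 j) := by have := hp.2 j; simpa [mul_assoc] using this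
    have h3 : N * B.1 j < N * B.2 j := mul_lt_mul_of_pos_left (hB j) (by exact_mod_cast hN)
    refine ⟨min (p j / 2) (N * B.2 j - 1), ?_, ?_⟩
    · omega
    · rw [abs_le]; omega
  choose q hq using key
  exact ⟨q, fun j => (hq j).1, fun j => (hq j).2⟩

theorem cB_sub {N : ℕ} (hN : 0 < N) {B : Pt × Pt} (h : GoodB B) : cB N B ⊆ K0 N := by
  intro p hp
  obtain ⟨q, hq, hpq⟩ := exists_cube hN (fun j => (h.1 j).2.1) hp
  have hN' : (0 : ℤ) ≤ N := Int.natCast_nonneg N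
  have out : ∀ c d : Pt, (∃ j, B.2 j ≤ c j ∨ d j ≤ B.1 j) → ¬ InBox N c d q := by
    rintro c d ⟨j, hj | hj⟩ hc
    · exact absurd ((hq j).2.trans_le (mul_le_mul_of_nonneg_left hj hN')) (not_lt.2 (hc j).1)
    · exact absurd ((hc j).2.trans_le (mul_le_mul_of_nonneg_left hj hN')) (not_lt.2 (hq j).1)
  refine ⟨q, ⟨⟨fun j => ⟨?_, ?_⟩, fun c hc => out _ _ (h.2.1 c hc)⟩,
    fun l => out _ _ (h.2.2 l)⟩, hpq⟩
  · exact le_trans (mul_le_mul_of_nonneg_left (h.1 j).1 hN') (hq j).1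
  · exact (hq j).2.trans_le (mul_le_mul_of_nonneg_left (h.1 j).2.2 hN')

theorem Meet.point (N : ℕ) {A B C : Pt × Pt} (h : Meet A B C) :
    ∃ p, p ∈ cB N A ∧ p ∈ cB N B ∧ p ∈ cB N C := by
  have hN : (0 : ℤ) ≤ 2 * N := by positivity
  have key : ∀ D : Pt × Pt, (∀ j, D.1 j ≤ max (max (A.1 j) (B.1 j)) (C.1 j) ∧
      min (min (A.2 j) (B.2 j)) (C.2 j) ≤ D.2 j) →
      (fun j => 2 * (N : ℤ) * max (max (A.1 j) (B.1 j)) (C.1 j)) ∈ cB N D := fun D hD =>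
    ⟨fun j => mul_le_mul_of_nonneg_left (hD j).1 hN,
      fun j => mul_le_mul_of_nonneg_left ((h j).trans (hD j).2) hN⟩
  exact ⟨_, key A fun j => by omega, key B fun j => by omega, key C fun j => by omega⟩

variable {N : ℕ} {τ : Pt → Pt → G}

theorem root (hN : 0 < N) (h : FlatOn (K0 N) τ) (B : Pt × Pt) (hB : GoodB B) :
    ∃ T, Triv τ (cB N B) T := exists_triv h (cB_sub hN hB)

theorem grow (hN : 0 < N) (h : FlatOn (K0 N) τ) {A : Pt × Pt} {T : Pt → G}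
    (hT : Triv τ (cB N A) T) (B : Pt × Pt) (hB : GoodB B) (hm : Meet A B B) :
    ∃ T', Triv τ (cB N B) T' ∧ Rel (cB N A) (cB N B) T T' 1 := by
  obtain ⟨T', hT'⟩ := root hN h B hB
  obtain ⟨p, h1, h2, -⟩ := hm.point N
  have h3 := hT'.mul (T p * (T' p)⁻¹)
  exact ⟨_, h3, rel_of_point hT h3 h1 h2 (by group)⟩

theorem gen {A B : Pt × Pt} {T T' : Pt → G} (hT : Triv τ (cB N A) T) (hT' : Triv τ (cB N B) T') :
    ∃ w, Rel (cB N A) (cB N B) T T' w := exists_rel hT hT'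

theorem tri {A B C : Pt × Pt} {T T' T'' : Pt → G} (hT : Triv τ (cB N A) T)
    (hT'' : Triv τ (cB N C) T'') {w w' w'' : G} (h1 : Rel (cB N A) (cB N B) T T' w)
    (h2 : Rel (cB N B) (cB N C) T' T'' w') (hm : Meet A B C) (e : w * w' = w'') :
    Rel (cB N A) (cB N C) T T'' w'' := by
  obtain ⟨p, p1, p2, p3⟩ := hm.point N
  exact rel_of_point hT hT'' p1 p3 (by rw [h1 p p1 p2, h2 p p2 p3, ← e, mul_assoc])

/-- the first base direction of the cubes of a colour; the second one is `2` -/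
def bu : Fin 3 → Fin 4 := ![1, 0, 0]

/-- the normal direction of the base face number `s` -/
def fd (i : Fin 3) : Fin 4 → Fin 4 := ![2, bu i, 2, bu i]

def fh : Fin 4 → ℤ := ![0, 3, 3, 0]

/-- the four closed base faces of the cube of a leg, in cyclic order -/
def Face (N : ℕ) (l : Lg) (s : Fin 4) : Set Pt :=
  {p | (∀ j, 2 * N * org l j ≤ p j ∧ p j ≤ 2 * N * (org l j + 3)) ∧
    p (fd l.1 s) = 2 * N * (org l (fd l.1 s) + fh s)}

def faceB (l : Lg) (s : Fin 4) : Pt × Pt :=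
  (fun j => if j = fd l.1 s then org l j + fh s else org l j,
    fun j => if j = fd l.1 s then org l j + fh s else org l j + 3)

theorem Face_sub (N : ℕ) (l : Lg) (s : Fin 4) : Face N l s ⊆ cB N (faceB l s) := by
  intro p hp
  refine ⟨fun j => ?_, fun j => ?_⟩ <;> simp only [faceB] <;> split_ifs with h
  · rw [h, hp.2]
  · exact (hp.1 j).1
  · rw [h, hp.2]
  · exact (hp.1 j).2

def sideB : Fin 4 → Pt × Pt :=
  ![bx 14 0 0 16 4 7, bx 14 0 3 16 9 7, bx 14 5 0 16 9 7, bx 14 0 0 16 9 2]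

/-- four boxes which contain the sides of the boundary rectangle -/
def Side (N : ℕ) (s : Fin 4) : Set Pt := cB N (sideB s)

theorem mem_Side {N : ℕ} {p : Pt} (h0 : 28 * (N : ℤ) ≤ p 0 ∧ p 0 ≤ 32 * N)
    (h1 : 0 ≤ p 1 ∧ p 1 ≤ 18 * N) (h2 : 0 ≤ p 2 ∧ p 2 ≤ 14 * N) (h3 : 0 ≤ p 3 ∧ p 3 ≤ 6 * N) :
    (p 1 ≤ 8 * N → p ∈ Side N 0) ∧ (6 * N ≤ p 2 → p ∈ Side N 1) ∧
      (10 * N ≤ p 1 → p ∈ Side N 2) ∧ (p 2 ≤ 4 * N → p ∈ Side N 3) := by
  refine ⟨fun h => ⟨fun j => ?_, fun j => ?_⟩, fun h => ⟨fun j => ?_, fun j => ?_⟩,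
    fun h => ⟨fun j => ?_, fun j => ?_⟩, fun h => ⟨fun j => ?_, fun j => ?_⟩⟩ <;>
  fin_cases j <;> simp [sideB, bx] <;> omega

end Vale.Agent.P215Z.Cert
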